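import Vale.Agent.P069.Tree

/-!
The component spaces `Comp n`: the Hilbert space on the tree of height `n`, renormed by the
supremum of `⟪g, x⟫` over functionals `g` of Euclidean norm at most one whose path sums are
bounded by one.
-/

open scoped ENNReal RealInnerProductSpace

namespace Vale.Agent.P069

/-- The Hilbert space on the nodes. -/
abbrev Hil (n : ℕ) : Type := lp (fun _ : Node n => ℝ) 2

variable {n : ℕ}

lemma two_pos' : 0 < (2 : ℝ≥0∞).toReal := by simp

lemma hil_norm_mono {x y : Hil n} (h : ∀ t, |x t| ≤ |y t|) : ‖x‖ ≤ ‖y‖ :=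
  lp.norm_mono (by norm_num) (fun t => by simpa using h t)

lemma hil_inner (x y : Hil n) : ⟪x, y⟫ = ∑' t, x t * y t := by
  rw [lp.inner_eq_tsum]
  exact tsum_congr fun t => by simp [mul_comm]

lemma hil_norm_single (t : Node n) (a : ℝ) : ‖(lp.single 2 t a : Hil n)‖ = |a| := by
  rw [lp.norm_single (by norm_num), Real.norm_eq_abs]

lemma hil_inner_single (x : Hil n) (t : Node n) (a : ℝ) :
    ⟪x, (lp.single 2 t a : Hil n)⟫ = a * x t := by
  rw [real_inner_comm, lp.inner_single_left]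
  simp [mul_comm]

lemma hil_abs_le (x : Hil n) (t : Node n) : |x t| ≤ ‖x‖ := by
  simpa using lp.norm_apply_le_norm (by norm_num : (2 : ℝ≥0∞) ≠ 0) x t

lemma pathSum_abs_le (x : Hil n) (t : Node n) : |pathSum (⇑x) t| ≤ (n + 1) * ‖x‖ := by
  calc |pathSum (⇑x) t| ≤ ∑ k ∈ Finset.range (lev t + 1), |x (anc t k)| :=
        Finset.abs_sum_le_sum_abs _ _
    _ ≤ ∑ _k ∈ Finset.range (lev t + 1), ‖x‖ := Finset.sum_le_sum fun k _ => hil_abs_le x _
    _ ≤ (n + 1) * ‖x‖ := by
        rw [Finset.sum_const, Finset.card_range, nsmul_eq_mul]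
        gcongr
        have := lev_le t
        exact_mod_cast (by omega : lev t + 1 ≤ n + 1)

lemma pathSum_add (f g : Node n → ℝ) (t : Node n) :
    pathSum (f + g) t = pathSum f t + pathSum g t := Finset.sum_add_distrib

lemma pathSum_smul (a : ℝ) (f : Node n → ℝ) (t : Node n) :
    pathSum (a • f) t = a * pathSum f t := by simp [pathSum, Finset.mul_sum]

/-- Norming functionals. -/
abbrev Dual1 (n : ℕ) : Type :=
  {g : Hil n // ‖g‖ ≤ 1 ∧ ∀ t, |pathSum (⇑g) t| ≤ 1}

/-- The tree space of height `n`. -/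
def Comp (n : ℕ) : Type := Hil n

noncomputable instance : AddCommGroup (Comp n) := inferInstanceAs (AddCommGroup (Hil n))

noncomputable instance : Module ℝ (Comp n) := inferInstanceAs (Module ℝ (Hil n))

/-- The identity to the Hilbert space. -/
noncomputable def toHil : Comp n ≃ₗ[ℝ] Hil n := LinearEquiv.refl ℝ (Hil n)

lemma pair_bound (x : Comp n) :
    Memℓp (E := fun _ : Dual1 n => ℝ) (fun g => ⟪g.1, toHil x⟫) ∞ := by
  refine memℓp_infty ⟨‖toHil x‖, ?_⟩
  rintro _ ⟨g, rfl⟩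
  calc ‖⟪g.1, toHil x⟫‖ ≤ ‖g.1‖ * ‖toHil x‖ := norm_inner_le_norm _ _
    _ ≤ 1 * ‖toHil x‖ := by gcongr; exact g.2.1
    _ = ‖toHil x‖ := one_mul _

/-- The family of pairings with norming functionals, as an element of a sup-normed space. -/
noncomputable def pairing : Comp n →ₗ[ℝ] lp (fun _ : Dual1 n => ℝ) ∞ where
  toFun x := ⟨fun g => ⟪g.1, toHil x⟫, pair_bound x⟩
  map_add' x y := lp.ext (funext fun g => by
    show ⟪g.1, toHil (x + y)⟫ = ⟪g.1, toHil x⟫ + ⟪g.1, toHil y⟫
    rw [map_add, inner_add_right])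
  map_smul' a x := lp.ext (funext fun g => by
    show ⟪g.1, toHil (a • x)⟫ = a * ⟪g.1, toHil x⟫
    rw [map_smul, real_inner_smul_right])

lemma pairing_apply (x : Comp n) (g : Dual1 n) : pairing x g = ⟪g.1, toHil x⟫ := rfl

/-- A small multiple of a unit vector is a norming functional. -/
lemma small_mem (v : Hil n) (hv : ‖v‖ ≤ 1) :
    ‖((n : ℝ) + 1)⁻¹ • v‖ ≤ 1 ∧ ∀ t, |pathSum (⇑(((n : ℝ) + 1)⁻¹ • v)) t| ≤ 1 := by
  have hn : (0 : ℝ) < n + 1 := by positivity
  have hs : ‖((n : ℝ) + 1)⁻¹ • v‖ ≤ ((n : ℝ) + 1)⁻¹ := by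
    rw [norm_smul, Real.norm_eq_abs, abs_of_pos (inv_pos.2 hn)]
    exact mul_le_of_le_one_right (by positivity) hv
  refine ⟨hs.trans (inv_le_one_of_one_le₀ (by linarith)), fun t => ?_⟩
  calc _ ≤ ((n : ℝ) + 1) * ‖((n : ℝ) + 1)⁻¹ • v‖ := pathSum_abs_le _ t
    _ ≤ ((n : ℝ) + 1) * ((n : ℝ) + 1)⁻¹ := by gcongr
    _ = 1 := mul_inv_cancel₀ hn.ne'

lemma pairing_injective : Function.Injective (pairing (n := n)) := by
  rw [← LinearMap.ker_eq_bot, Submodule.eq_bot_iff]
  intro x hx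
  rw [LinearMap.mem_ker] at hx
  apply toHil.map_eq_zero_iff.1
  by_contra hne
  have hpos : 0 < ‖toHil x‖ := norm_pos_iff.2 hne
  have hv : ‖‖toHil x‖⁻¹ • toHil x‖ ≤ 1 := by simp [norm_smul, hpos.ne']
  have := pairing_apply x ⟨_, small_mem _ hv⟩
  rw [hx] at this
  rw [lp.coeFn_zero, Pi.zero_apply] at this
  dsimp only at this
  rw [real_inner_smul_left, real_inner_smul_left, real_inner_self_eq_norm_sq] at this
  have : 0 < ((n : ℝ) + 1)⁻¹ * (‖toHil x‖⁻¹ * ‖toHil x‖ ^ 2) := by positivity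
  linarith

noncomputable instance : NormedAddCommGroup (Comp n) :=
  NormedAddCommGroup.induced (Comp n) _ pairing pairing_injective

noncomputable instance : NormedSpace ℝ (Comp n) where
  norm_smul_le a x := by
    show ‖pairing (a • x)‖ ≤ ‖a‖ * ‖pairing x‖
    rw [map_smul, norm_smul]

lemma comp_norm_def (x : Comp n) : ‖x‖ = ‖pairing x‖ := rfl

lemma abs_pair_le (g : Dual1 n) (x : Comp n) : |⟪g.1, toHil x⟫| ≤ ‖x‖ := by
  simpa [comp_norm_def, pairing_apply] using lp.norm_apply_le_norm (by simp) (pairing x) g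

lemma pair_le (g : Dual1 n) (x : Comp n) : ⟪g.1, toHil x⟫ ≤ ‖x‖ :=
  (le_abs_self _).trans (abs_pair_le g x)

lemma comp_norm_le {x : Comp n} {C : ℝ} (hC : 0 ≤ C) (h : ∀ g : Dual1 n, |⟪g.1, toHil x⟫| ≤ C) :
    ‖x‖ ≤ C := by
  rw [comp_norm_def]
  exact lp.norm_le_of_forall_le hC fun g => by simpa [pairing_apply] using h g

lemma comp_norm_le_hil (x : Comp n) : ‖x‖ ≤ ‖toHil x‖ :=
  comp_norm_le (norm_nonneg _) fun g => by
    calc |⟪g.1, toHil x⟫| ≤ ‖g.1‖ * ‖toHil x‖ := abs_real_inner_le_norm _ _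
      _ ≤ 1 * ‖toHil x‖ := by gcongr; exact g.2.1
      _ = ‖toHil x‖ := one_mul _

lemma hil_le_comp_norm (x : Comp n) : ‖toHil x‖ ≤ (n + 1) * ‖x‖ := by
  by_cases hne : toHil x = 0
  · rw [hne, norm_zero]; positivity
  have hpos : 0 < ‖toHil x‖ := norm_pos_iff.2 hne
  have hv : ‖‖toHil x‖⁻¹ • toHil x‖ ≤ 1 := by simp [norm_smul, hpos.ne']
  have := pair_le ⟨_, small_mem _ hv⟩ x
  simp only [inner_smul_left, RCLike.conj_to_real, real_inner_self_eq_norm_sq] at this
  have hn : (0 : ℝ) < n + 1 := by positivity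
  have h2 : ‖toHil x‖⁻¹ * ‖toHil x‖ ^ 2 = ‖toHil x‖ := by field_simp
  rw [h2, ← div_eq_inv_mul, div_le_iff₀ hn] at this
  linarith

/-- The identity, as an isomorphism of Banach spaces. -/
noncomputable def toHilL : Comp n ≃L[ℝ] Hil n :=
  toHil.toContinuousLinearEquivOfBounds (n + 1) 1
    hil_le_comp_norm (fun v => by simpa using comp_norm_le_hil (toHil.symm v))

lemma toHilL_apply (x : Comp n) : toHilL x = toHil x := rfl

instance : CompleteSpace (Comp n) :=
  (completeSpace_congr (e := (toHilL (n := n)).toLinearEquiv.toEquiv)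
    toHilL.isUniformEmbedding).2 inferInstance

/-- Unit vector at a node. -/
noncomputable def unit (t : Node n) : Comp n := toHil.symm (lp.single 2 t 1)

lemma toHil_unit (t : Node n) : toHil (unit t) = lp.single 2 t 1 := LinearEquiv.apply_symm_apply _ _

/-- Sum of the unit vectors along the path to `t`. -/
noncomputable def branch (t : Node n) : Comp n :=
  ∑ k ∈ Finset.range (lev t + 1), unit (anc t k)

lemma inner_branch (g : Hil n) (t : Node n) : ⟪g, toHil (branch t)⟫ = pathSum (⇑g) t := by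
  rw [branch, map_sum, inner_sum]
  exact Finset.sum_congr rfl fun k _ => by rw [toHil_unit, hil_inner_single, one_mul]

lemma norm_branch_le (t : Node n) : ‖branch t‖ ≤ 1 :=
  comp_norm_le zero_le_one fun g => by rw [inner_branch]; exact g.2.2 t

lemma single_mem (t : Node n) :
    ‖(lp.single 2 t (1 : ℝ) : Hil n)‖ ≤ 1 ∧
      ∀ u, |pathSum (⇑(lp.single 2 t (1 : ℝ) : Hil n)) u| ≤ 1 := by
  classical
  refine ⟨by rw [hil_norm_single]; simp, fun u => ?_⟩
  have h : pathSum (⇑(lp.single 2 t (1 : ℝ) : Hil n)) u =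
      (((Finset.range (lev u + 1)).filter (fun k => anc u k = t)).card : ℝ) := by
    unfold pathSum
    rw [← Finset.sum_boole]
    refine Finset.sum_congr rfl fun k _ => ?_
    rw [lp.single_apply, Pi.single_apply]
  rw [h, Nat.abs_cast, Nat.cast_le_one]
  refine Finset.card_le_one.2 fun a ha b hb => ?_
  simp only [Finset.mem_filter, Finset.mem_range] at ha hb
  rw [anc_eq_iff (by omega) ha.2, anc_eq_iff (by omega) hb.2]

lemma one_le_norm_unit (t : Node n) : 1 ≤ ‖unit t‖ := by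
  have h := pair_le ⟨_, single_mem t⟩ (unit t)
  rw [toHil_unit, hil_inner_single, one_mul, lp.single_apply_self] at h
  exact h

lemma norm_unit (t : Node n) : ‖unit t‖ = 1 :=
  le_antisymm ((comp_norm_le_hil _).trans (by rw [toHil_unit, hil_norm_single]; simp))
    (one_le_norm_unit t)

lemma one_le_norm_branch (t : Node n) : 1 ≤ ‖branch t‖ := by
  have h := pair_le ⟨_, single_mem (anc t 0)⟩ (branch t)
  rw [inner_branch] at h
  refine le_trans ?_ h
  have h0 : ∀ k ∈ Finset.range (lev t + 1), k ≠ 0 →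
      (lp.single 2 (anc t 0) (1 : ℝ) : Hil n) (anc t k) = 0 := by
    intro k hk hk0
    refine lp.single_apply_ne _ _ _ fun h => ?_
    have := congrArg lev h
    simp [lev_anc] at this hk
    omega
  show (1 : ℝ) ≤ ∑ k ∈ Finset.range (lev t + 1), _
  rw [Finset.sum_eq_single 0 h0 (by simp), lp.single_apply_self]

end Vale.Agent.P069
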