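import Vale.Agent.P069.Component

/-!
The midpoint inequality in a component: if `x` lives on a finite ancestor-closed set of nodes
and `y` vanishes there, then `2 ‖x‖² + ‖y‖² / 32 ≤ ‖x + y‖² + ‖x - y‖²`.
-/

open scoped ENNReal RealInnerProductSpace

namespace Vale.Agent.P069

variable {n : ℕ}

lemma inner_eq_zero_of_disjoint (a b : Hil n) (h : ∀ t, a t = 0 ∨ b t = 0) : ⟪a, b⟫ = 0 := by
  rw [hil_inner]
  convert tsum_zero (α := ℝ) (β := Node n) using 3 with t
  rcases h t with h | h <;> simp [h]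

/-- A functional with `|coeff| ≤ |g|` coordinatewise. -/
noncomputable def dominated (g : Hil n) (f : Node n → ℝ) (h : ∀ t, |f t| ≤ |g t|) : Hil n :=
  ⟨f, (lp.memℓp g).mono' (fun t => by simpa using h t)⟩

lemma abs_max_sub (a b : ℝ) : |max a 0 - max b 0| ≤ |a - b| :=
  abs_max_sub_max_le_abs a b 0

open Classical in
/-- The one-sided half of `F` whose sign is opposite to `σ`. -/
noncomputable def part (σ : Node n → Prop) (F : Node n → ℝ) (t : Node n) : ℝ :=
  if σ t then -max (F t) 0 / 2 else max (-F t) 0 / 2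

lemma part_props (σ : Node n → Prop) (S : Set (Node n)) (hS : AncClosed S) (F : Node n → ℝ)
    (hF2 : ∀ t, |F t| ≤ 2) (hFin : ∀ t ∈ S, F t = 0)
    (hσ : ∀ t ∉ S, lev t ≠ 0 → (σ t ↔ σ (anc t (lev t - 1)))) :
    (∀ t, |part σ F t| ≤ 1) ∧ (∀ t, σ t → part σ F t ≤ 0) ∧ (∀ t, ¬ σ t → 0 ≤ part σ F t) ∧
      (∀ t, |incr (part σ F) t| ≤ |incr F t| / 2) := by
  have hb : ∀ t, |part σ F t| ≤ |F t| / 2 := fun t => by
    have := neg_abs_le (F t); have := le_abs_self (F t); have := abs_nonneg (F t)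
    unfold part
    split_ifs <;> rw [abs_le] <;>
      rcases max_cases (F t) 0 with ⟨a, -⟩ | ⟨a, -⟩ <;>
      rcases max_cases (-F t) 0 with ⟨b, -⟩ | ⟨b, -⟩ <;> constructor <;> linarith
  refine ⟨fun t => (hb t).trans (by linarith [hF2 t]), fun t ht => ?_, fun t ht => ?_, fun t => ?_⟩
  · rw [part, if_pos ht]; linarith [le_max_right (F t) 0]
  · rw [part, if_neg ht]; linarith [le_max_right (-F t) 0]
  by_cases hu : t ∈ S
  · have h0 : ∀ s ∈ S, part σ F s = 0 := fun s hs => by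
      have := hb s
      rw [hFin s hs] at this
      simpa using this
    have hz : incr (part σ F) t = 0 := by
      unfold incr parentVal
      rw [h0 t hu, h0 _ (hS t hu _)]
      simp
    rw [hz, abs_zero]
    positivity
  · unfold incr parentVal
    by_cases hl : lev t = 0
    · rw [if_pos hl, if_pos hl, sub_zero, sub_zero]
      exact hb t
    · rw [if_neg hl, if_neg hl]
      have hs := hσ t hu hl
      have h1 := abs_max_sub (F t) (F (anc t (lev t - 1)))
      have h2 := abs_max_sub (-F t) (-F (anc t (lev t - 1)))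
      unfold part
      by_cases ht : σ t
      · rw [if_pos ht, if_pos (hs.1 ht), abs_le]
        rw [abs_le] at h1
        constructor <;> linarith
      · rw [if_neg ht, if_neg (mt hs.2 ht), abs_le]
        have h4 : |-F t - -F (anc t (lev t - 1))| = |F t - F (anc t (lev t - 1))| := by
          rw [← abs_neg]; ring_nf
        constructor <;> linarith [abs_le.1 ((abs_max_sub (-F t) _).trans_eq h4)]

/-- The numerical conclusion from the one-parameter family of estimates. -/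
lemma quad_bound (a b c M : ℝ) (ha : 0 ≤ a) (hb : 0 ≤ b) (hc : b / 4 ≤ c)
    (hk : ∀ s : ℝ, 0 ≤ s → s ≤ 1 → (1 - s ^ 2) * a + s * c ≤ M) :
    a ^ 2 + b ^ 2 / 32 ≤ M ^ 2 := by
  by_cases hcase : 8 * a ≤ b
  · have := hk 1 zero_le_one le_rfl
    have h3 : b / 4 ≤ M := by linarith
    have h4 := mul_self_le_mul_self (by linarith : (0:ℝ) ≤ b / 4) h3
    have h5 := mul_self_le_mul_self (by linarith : (0:ℝ) ≤ 8 * a) hcase
    nlinarith
  · have ha0 : 0 < a := by linarith
    set s := b / (8 * a) with hs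
    have hs0 : 0 ≤ s := by positivity
    have hs1 : s ≤ 1 := (div_le_one (by linarith)).2 (by linarith)
    have h3 := hk s hs0 hs1
    have hsb : b = 8 * a * s := by rw [hs]; field_simp
    have h4 : s * (b / 4) ≤ s * c := mul_le_mul_of_nonneg_left hc hs0
    have h5 : a + a * s ^ 2 ≤ M := by nlinarith
    have h6 := mul_self_le_mul_self (by positivity) h5
    have h7 := mul_nonneg (sq_nonneg a) (sq_nonneg (s ^ 2))
    rw [hsb]
    nlinarith

/-- The tilted functional is still norming. -/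
lemma tilt_mem (g' h : Hil n) (H : Node n → ℝ) (σ : Node n → Prop) (hσ : ∀ t, σ t ↔ 0 ≤ pathSum (⇑g') t)
    (g'norm : ‖g'‖ ≤ 1) (g'path : ∀ t, |pathSum (⇑g') t| ≤ 1) (hnorm : ‖h‖ ≤ 1 / 2)
    (horth : ⟪g', h⟫ = 0) (hc : ⇑h = incr H) (hHb : ∀ t, |H t| ≤ 1)
    (hneg : ∀ t, σ t → H t ≤ 0) (hpos : ∀ t, ¬ σ t → 0 ≤ H t) (s : ℝ) (hs0 : 0 ≤ s) (hs1 : s ≤ 1) :
    ‖(1 - s ^ 2) • g' + s • h‖ ≤ 1 ∧ ∀ t, |pathSum (⇑((1 - s ^ 2) • g' + s • h)) t| ≤ 1 := by
  have hs2 : s ^ 2 ≤ 1 := pow_le_one₀ hs0 hs1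
  constructor
  · have e := norm_add_sq_eq_norm_sq_add_norm_sq_real (x := (1 - s ^ 2) • g') (y := s • h)
      (by rw [real_inner_smul_left, real_inner_smul_right, horth]; simp)
    rw [norm_smul, norm_smul, Real.norm_eq_abs, Real.norm_eq_abs, abs_of_nonneg hs0,
      abs_of_nonneg (by linarith : (0 : ℝ) ≤ 1 - s ^ 2)] at e
    have e1 : (1 - s ^ 2) * ‖g'‖ ≤ 1 - s ^ 2 := mul_le_of_le_one_right (by linarith) g'norm
    have e2 : s * ‖h‖ ≤ s := mul_le_of_le_one_right hs0 (by linarith)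
    have e1' : 0 ≤ (1 - s ^ 2) * ‖g'‖ := mul_nonneg (by linarith) (norm_nonneg _)
    have e2' : 0 ≤ s * ‖h‖ := mul_nonneg hs0 (norm_nonneg _)
    nlinarith [norm_nonneg ((1 - s ^ 2) • g' + s • h), mul_self_le_mul_self e1' e1,
      mul_self_le_mul_self e2' e2, pow_nonneg hs0 4]
  · intro t
    have e : pathSum (⇑((1 - s ^ 2) • g' + s • h)) t =
        (1 - s ^ 2) * pathSum (⇑g') t + s * H t := by
      rw [lp.coeFn_add, lp.coeFn_smul, lp.coeFn_smul, pathSum_add, pathSum_smul,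
        pathSum_smul, hc, pathSum_incr]
    rw [e, abs_le]
    have hP := abs_le.1 (g'path t)
    have hH := abs_le.1 (hHb t)
    by_cases ht : σ t
    · have := hneg t ht
      have ht' := (hσ t).1 ht
      constructor <;> nlinarith
    · have := hpos t ht
      have ht' : pathSum (⇑g') t ≤ 0 := le_of_lt (not_le.1 (mt (hσ t).2 ht))
      constructor <;> nlinarith

open Classical in
/-- The basic estimate for a single pair of norming functionals. -/
lemma gain_pair (U : Finset (Node n)) (hU : AncClosed (↑U : Set (Node n))) (x y : Comp n)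
    (hx : ∀ t ∉ U, toHil x t = 0) (hy : ∀ t ∈ U, toHil y t = 0) (g φ : Dual1 n)
    (hg : 0 ≤ ⟪g.1, toHil x⟫) :
    ⟪g.1, toHil x⟫ ≤ ‖x + y‖ ∧
      ⟪g.1, toHil x⟫ ^ 2 + ⟪φ.1, toHil y⟫ ^ 2 / 32 ≤ max ‖x + y‖ ‖x - y‖ ^ 2 := by
  set S : Set (Node n) := ↑U with hS
  let g' : Hil n := dominated g.1 (S.indicator ⇑g.1) (fun t => by
    by_cases h : t ∈ S <;> simp [h])
  have g'c : ⇑g' = S.indicator ⇑g.1 := rfl
  have g'norm : ‖g'‖ ≤ 1 := le_trans (hil_norm_mono fun t => by
    rw [g'c]; by_cases h : t ∈ S <;> simp [h]) g.2.1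
  have g'path : ∀ t, |pathSum (⇑g') t| ≤ 1 := fun t => by
    rw [g'c]; exact abs_pathSum_indicator_le hU g.2.2 t
  have g'x : ⟪g', toHil x⟫ = ⟪g.1, toHil x⟫ := by
    rw [hil_inner, hil_inner]
    refine tsum_congr fun t => ?_
    rw [g'c]
    by_cases h : t ∈ S
    · rw [Set.indicator_of_mem h]
    · rw [hx t h]; simp
  have g'y : ⟪g', toHil y⟫ = 0 := inner_eq_zero_of_disjoint _ _ fun t => by
    rw [g'c]
    by_cases h : t ∈ S
    · exact Or.inr (hy t h)
    · exact Or.inl (Set.indicator_of_notMem h _)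
  set a := ⟪g.1, toHil x⟫ with ha
  have base : a ≤ ‖x + y‖ := by
    have := pair_le ⟨g', g'norm, g'path⟩ (x + y)
    simp only [map_add, inner_add_right, g'x, g'y, add_zero] at this
    exact this
  refine ⟨base, ?_⟩
  set φo : Node n → ℝ := Sᶜ.indicator ⇑φ.1 with hφo
  set F : Node n → ℝ := pathSum φo with hF
  have hF2 : ∀ t, |F t| ≤ 2 := fun t => by
    have h1 := φ.2.2 t
    have h2 := abs_pathSum_indicator_le hU φ.2.2 t
    have h3 : pathSum (⇑φ.1) t = pathSum (S.indicator ⇑φ.1) t + F t := by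
      rw [hF, hφo, ← pathSum_add, Set.indicator_self_add_compl]
    rw [abs_le] at h1 h2 ⊢
    constructor <;> linarith
  have hFin : ∀ t ∈ S, F t = 0 := fun t ht =>
    pathSum_eq_zero hU (fun s hs => Set.indicator_of_notMem (by simpa using hs) _) ht
  set σ : Node n → Prop := fun t => 0 ≤ pathSum (⇑g') t with hσ
  let H1 : Node n → ℝ := part σ F
  let H2 : Node n → ℝ := part σ (-F)
  have hσp : ∀ t ∉ S, lev t ≠ 0 → (σ t ↔ σ (anc t (lev t - 1))) := fun t hu hl => by
    simp only [hσ]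
    rw [pathSum_outside (by rw [g'c]; exact Set.indicator_of_notMem hu _) hl]
  have hincF : ∀ t, incr F t = φo t := fun t => incr_pathSum φo t
  have key : ∀ H : Node n → ℝ, (H = H1 ∨ H = H2) →
      (∀ t, |H t| ≤ 1) ∧ (∀ t, σ t → H t ≤ 0) ∧ (∀ t, ¬ σ t → 0 ≤ H t) ∧
        (∀ t, |incr H t| ≤ |φo t| / 2) := by
    intro H hH
    rcases hH with rfl | rfl
    · obtain ⟨p, q, r, u⟩ := part_props σ S hU F hF2 hFin hσp
      exact ⟨p, q, r, fun t => by rw [← hincF t]; exact u t⟩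
    · obtain ⟨p, q, r, u⟩ := part_props σ S hU (-F) (fun t => by simpa using hF2 t)
        (fun t ht => by simp [hFin t ht]) hσp
      refine ⟨p, q, r, fun t => le_trans (u t) (le_of_eq ?_)⟩
      have : incr (-F) t = -incr F t := by
        unfold incr parentVal
        split_ifs <;> simp <;> ring
      rw [this, abs_neg, hincF]
  have hdom : ∀ H : Node n → ℝ, (H = H1 ∨ H = H2) → ∀ t, |incr H t| ≤ |φ.1 t| := fun H hH t => by
    have h1 := (key H hH).2.2.2 t
    have h2 : |φo t| ≤ |φ.1 t| := by rw [hφo]; by_cases h : t ∈ S <;> simp [h]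
    have := abs_nonneg (φo t)
    linarith
  have hdiffH : ∀ t, H1 t - H2 t = -F t / 2 := fun t => by
    have hm : max (F t) 0 - max (-F t) 0 = F t := max_zero_sub_max_neg_zero_eq_self (F t)
    by_cases ht : σ t <;> simp only [H1, H2, part, ht, if_true, if_false, Pi.neg_apply, neg_neg] <;>
      linarith
  let h1 : Hil n := dominated φ.1 (incr H1) (hdom H1 (Or.inl rfl))
  let h2 : Hil n := dominated φ.1 (incr H2) (hdom H2 (Or.inr rfl))
  set b := ⟪φ.1, toHil y⟫ with hb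
  have hdiffy : ⟪h1, toHil y⟫ - ⟪h2, toHil y⟫ = -(b / 2) := by
    rw [← inner_sub_left, hb, hil_inner, hil_inner, ← tsum_div_const, ← tsum_neg]
    refine tsum_congr fun t => ?_
    have e1 : (h1 - h2 : Hil n) t = incr H1 t - incr H2 t := rfl
    rw [e1]
    by_cases hu : t ∈ S
    · rw [hy t hu]; simp
    · have e2 : incr H1 t - incr H2 t = -φ.1 t / 2 := by
        have e3 : φ.1 t = incr F t := by
          rw [hF, incr_pathSum, hφo, Set.indicator_of_mem (by simpa using hu)]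
        rw [e3]
        unfold incr parentVal
        by_cases hl : lev t = 0
        · simp only [if_pos hl]; linarith [hdiffH t]
        · simp only [if_neg hl]; linarith [hdiffH t, hdiffH (anc t (lev t - 1))]
      rw [e2]; ring
  obtain ⟨H, hH, hHy⟩ : ∃ H, ∃ (hH : H = H1 ∨ H = H2),
      |b| / 4 ≤ |⟪dominated φ.1 (incr H) (hdom H hH), toHil y⟫| := by
    by_cases hc : |b| / 4 ≤ |⟪h1, toHil y⟫|
    · exact ⟨H1, Or.inl rfl, hc⟩
    · refine ⟨H2, Or.inr rfl, ?_⟩
      show |b| / 4 ≤ |⟪h2, toHil y⟫|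
      have := abs_sub_abs_le_abs_sub ⟪h1, toHil y⟫ ⟪h2, toHil y⟫
      have := abs_sub (⟪h1, toHil y⟫) (⟪h2, toHil y⟫)
      rw [hdiffy, abs_neg, abs_div, abs_two] at this
      linarith
  obtain ⟨hHb, hneg, hpos, hinc⟩ := key H hH
  set h : Hil n := dominated φ.1 (incr H) (hdom H hH) with hh
  have hc : ⇑h = incr H := rfl
  have hin : ∀ t ∈ S, h t = 0 := fun t ht => by
    have := hinc t
    rw [hφo, Set.indicator_of_notMem (by simpa using ht)] at this
    simpa [hc] using this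
  have hnorm : ‖h‖ ≤ 1 / 2 := by
    have : ‖h‖ ≤ ‖(1 / 2 : ℝ) • φ.1‖ := hil_norm_mono fun t => by
      rw [lp.coeFn_smul, Pi.smul_apply, smul_eq_mul, abs_mul, hc]
      have h2 : |φo t| ≤ |φ.1 t| := by rw [hφo]; by_cases h : t ∈ S <;> simp [h]
      have := hinc t
      norm_num
      linarith
    refine this.trans ?_
    rw [norm_smul]
    have := φ.2.1
    norm_num
    linarith
  have horth : ⟪g', h⟫ = 0 := inner_eq_zero_of_disjoint _ _ fun t => by
    by_cases ht : t ∈ S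
    · exact Or.inr (hin t ht)
    · exact Or.inl (by rw [g'c]; exact Set.indicator_of_notMem ht _)
  have hx0 : ⟪h, toHil x⟫ = 0 := inner_eq_zero_of_disjoint _ _ fun t => by
    by_cases ht : t ∈ S
    · exact Or.inl (hin t ht)
    · exact Or.inr (hx t ht)
  set c := ⟪h, toHil y⟫ with hcdef
  set M := max ‖x + y‖ ‖x - y‖ with hM
  have hk : ∀ s : ℝ, 0 ≤ s → s ≤ 1 → (1 - s ^ 2) * a + s * |c| ≤ M := by
    intro s hs0 hs1
    obtain ⟨knorm, kpath⟩ := tilt_mem g' h H σ (fun t => Iff.rfl) g'norm g'path hnorm horth hc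
      hHb hneg hpos s hs0 hs1
    have p1 := pair_le ⟨_, knorm, kpath⟩ (x + y)
    have p2 := pair_le ⟨_, knorm, kpath⟩ (x - y)
    simp only [map_add, map_sub, inner_add_left, inner_add_right, inner_sub_right,
      real_inner_smul_left, g'x, g'y, hx0, ← hcdef, ← ha] at p1 p2
    have h1' : ‖x + y‖ ≤ M := le_max_left _ _
    have h2' : ‖x - y‖ ≤ M := le_max_right _ _
    rcases abs_cases c with ⟨e, -⟩ | ⟨e, -⟩ <;> rw [e] <;> linarith
  rw [← sq_abs b]
  exact quad_bound a |b| |c| M hg (abs_nonneg _) hHy hk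

/-- The midpoint inequality in a component. -/
lemma gain (U : Finset (Node n)) (hU : AncClosed (↑U : Set (Node n))) (x y : Comp n)
    (hx : ∀ t ∉ U, toHil x t = 0) (hy : ∀ t ∈ U, toHil y t = 0) :
    2 * ‖x‖ ^ 2 + ‖y‖ ^ 2 / 32 ≤ ‖x + y‖ ^ 2 + ‖x - y‖ ^ 2 := by
  set M := max ‖x + y‖ ‖x - y‖ with hM
  have hM0 : 0 ≤ M := le_max_of_le_left (norm_nonneg _)
  have main : ∀ g φ : Dual1 n, |⟪g.1, toHil x⟫| ≤ ‖x + y‖ ∧
      ⟪g.1, toHil x⟫ ^ 2 + ⟪φ.1, toHil y⟫ ^ 2 / 32 ≤ M ^ 2 := by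
    intro g φ
    rcases le_total 0 ⟪g.1, toHil x⟫ with h | h
    · have := gain_pair U hU x y hx hy g φ h
      rw [abs_of_nonneg h]; exact this
    · let g'' : Dual1 n := ⟨-g.1, by simpa using g.2.1, fun t => by
        have := g.2.2 t
        simpa [pathSum, Finset.sum_neg_distrib] using this⟩
      have := gain_pair U hU x y hx hy g'' φ (by simpa [g''] using h)
      rw [abs_of_nonpos h]
      simpa [g''] using this
  have h1 : ‖x‖ ≤ ‖x + y‖ :=
    comp_norm_le (norm_nonneg _) fun g => (main g g).1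
  have h1' : ‖x‖ ≤ ‖x - y‖ := by
    refine comp_norm_le (norm_nonneg _) fun g => ?_
    have hy' : ∀ t ∈ U, toHil (-y) t = 0 := fun t ht => by simp [hy t ht]
    rcases le_total 0 ⟪g.1, toHil x⟫ with h | h
    · have := (gain_pair U hU x (-y) hx hy' g g h).1
      rw [abs_of_nonneg h]; simpa [sub_eq_add_neg] using this
    · let g'' : Dual1 n := ⟨-g.1, by simpa using g.2.1, fun t => by
        have := g.2.2 t
        simpa [pathSum, Finset.sum_neg_distrib] using this⟩
      have := (gain_pair U hU x (-y) hx hy' g'' g (by simpa [g''] using h)).1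
      rw [abs_of_nonpos h]; simpa [g'', sub_eq_add_neg] using this
  have h2 : ∀ φ : Dual1 n, ‖x‖ ^ 2 + ⟪φ.1, toHil y⟫ ^ 2 / 32 ≤ M ^ 2 := by
    intro φ
    have h0 : 0 ≤ M ^ 2 - ⟪φ.1, toHil y⟫ ^ 2 / 32 := by
      nlinarith [(main φ φ).2]
    have : ‖x‖ ≤ Real.sqrt (M ^ 2 - ⟪φ.1, toHil y⟫ ^ 2 / 32) := by
      refine comp_norm_le (Real.sqrt_nonneg _) fun g => Real.abs_le_sqrt ?_
      linarith [(main g φ).2]
    have := mul_self_le_mul_self (norm_nonneg x) this
    rw [Real.mul_self_sqrt h0] at this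
    nlinarith
  have h3 : ‖x‖ ^ 2 + ‖y‖ ^ 2 / 32 ≤ M ^ 2 := by
    have h0 : 0 ≤ 32 * (M ^ 2 - ‖x‖ ^ 2) := by
      nlinarith [h1.trans (le_max_left ‖x + y‖ ‖x - y‖), norm_nonneg x]
    have : ‖y‖ ≤ Real.sqrt (32 * (M ^ 2 - ‖x‖ ^ 2)) := by
      refine comp_norm_le (Real.sqrt_nonneg _) fun φ => Real.abs_le_sqrt ?_
      linarith [h2 φ]
    have := mul_self_le_mul_self (norm_nonneg y) this
    rw [Real.mul_self_sqrt h0] at this
    nlinarith
  have q1 := pow_le_pow_left₀ (norm_nonneg x) h1 2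
  have q2 := pow_le_pow_left₀ (norm_nonneg x) h1' 2
  rcases max_choice ‖x + y‖ ‖x - y‖ with e | e <;> rw [hM, e] at h3 <;> linarith

end Vale.Agent.P069
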