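import Vale.Agent.P069.Defs
import Vale.Agent.P069.Gain

/-!
The `ℓ²`-sum of the tree spaces: reflexive, asymptotically midpoint uniformly convex, and
without an equivalent asymptotically uniformly convex norm.
-/

open scoped ENNReal RealInnerProductSpace
open Filter Topology

namespace Vale.Agent.P069

/-- The `ℓ²`-sum of the tree spaces. -/
abbrev Big : Type := lp Comp 2

lemma big_hasSum (x : Big) : HasSum (fun i => ‖x i‖ ^ 2) (‖x‖ ^ 2) := by
  simpa [Real.rpow_two] using lp.hasSum_norm two_pos' x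

lemma big_sum_le (x : Big) (s : Finset ℕ) : ∑ i ∈ s, ‖x i‖ ^ 2 ≤ ‖x‖ ^ 2 :=
  sum_le_hasSum s (fun _ _ => by positivity) (big_hasSum x)

lemma comp_reflexive (m : ℕ) :
    Function.Surjective (NormedSpace.inclusionInDoubleDual ℝ (Comp m)) := by
  intro Φ
  let D : Hil m →L[ℝ] StrongDual ℝ (Comp m) :=
    LinearMap.mkContinuous
      { toFun := fun v => (innerSL ℝ v).comp (toHilL (n := m) : Comp m →L[ℝ] Hil m)
        map_add' := fun v w => by ext z; simp [inner_add_left]
        map_smul' := fun a v => by ext z; simp [inner_smul_left] }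
      (m + 1) (fun v => by
        refine ContinuousLinearMap.opNorm_le_bound _ (by positivity) fun z => ?_
        have h1 := hil_le_comp_norm z
        have h2 := abs_real_inner_le_norm v (toHil z)
        have h3 := mul_le_mul_of_nonneg_left h1 (norm_nonneg v)
        have h4 : ‖(innerSL ℝ v).comp (toHilL (n := m) : Comp m →L[ℝ] Hil m) z‖ =
            |⟪v, toHil z⟫| := rfl
        show ‖(innerSL ℝ v).comp (toHilL (n := m) : Comp m →L[ℝ] Hil m) z‖ ≤ _
        rw [h4]
        linarith)
  set w := (InnerProductSpace.toDual ℝ (Hil m)).symm (Φ.comp D) with hw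
  refine ⟨toHil.symm w, ?_⟩
  ext f
  set v := (InnerProductSpace.toDual ℝ (Hil m)).symm
    (f.comp ((toHilL (n := m)).symm : Hil m →L[ℝ] Comp m)) with hv
  have hfv : ∀ z, f z = ⟪v, toHil z⟫ := fun z => by
    rw [hv, InnerProductSpace.toDual_symm_apply]
    show f z = f ((toHilL (n := m)).symm (toHilL z))
    rw [ContinuousLinearEquiv.symm_apply_apply]
  have hfD : f = D v := by ext z; exact hfv z
  rw [NormedSpace.dual_def, hfv, LinearEquiv.apply_symm_apply, real_inner_comm, hw,
    InnerProductSpace.toDual_symm_apply, hfD]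
  rfl

/-- The embedding of a component. -/
noncomputable def incl (m : ℕ) : Comp m →L[ℝ] Big := lp.singleContinuousLinearMap ℝ Comp 2 m

lemma incl_apply (m : ℕ) (z : Comp m) : incl m z = lp.single 2 m z := rfl

lemma norm_incl (m : ℕ) (z : Comp m) : ‖incl m z‖ = ‖z‖ := by
  rw [incl_apply, lp.norm_single (by norm_num)]

lemma norm_sum_incl (a : ∀ i, Comp i) (s : Finset ℕ) :
    ‖∑ i ∈ s, incl i (a i)‖ ^ 2 = ∑ i ∈ s, ‖a i‖ ^ 2 := by
  simpa [Real.rpow_two, incl_apply] using lp.norm_sum_single two_pos' a s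

theorem big_reflexive : Function.Surjective (NormedSpace.inclusionInDoubleDual ℝ Big) := by
  intro Φ
  let R : ∀ i, StrongDual ℝ (Comp i) →L[ℝ] StrongDual ℝ Big := fun i =>
    ContinuousLinearMap.precomp ℝ (lp.evalCLM ℝ Comp 2 i)
  have hR : ∀ i φ (x : Big), R i φ x = φ (x i) := fun i φ x => rfl
  choose a ha using fun i => comp_reflexive i (Φ.comp (R i))
  have haf : ∀ i φ, Φ (R i φ) = φ (a i) := fun i φ => by
    have := DFunLike.congr_fun (ha i) φ
    rw [NormedSpace.dual_def] at this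
    exact this.symm
  have hbd : ∀ s : Finset ℕ, ∑ i ∈ s, ‖a i‖ ^ 2 ≤ ‖Φ‖ ^ 2 := by
    intro s
    choose φ hφ1 hφ2 using fun i => exists_dual_vector'' ℝ (a i)
    set L : StrongDual ℝ Big := ∑ i ∈ s, R i (‖a i‖ • φ i) with hL
    set A := ∑ i ∈ s, ‖a i‖ ^ 2 with hA
    have hA0 : 0 ≤ A := Finset.sum_nonneg fun i _ => by positivity
    have hLn : ‖L‖ ≤ Real.sqrt A := by
      refine ContinuousLinearMap.opNorm_le_bound _ (Real.sqrt_nonneg _) fun x => ?_
      rw [hL, ContinuousLinearMap.sum_apply]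
      calc ‖∑ i ∈ s, R i (‖a i‖ • φ i) x‖ ≤ ∑ i ∈ s, ‖a i‖ * ‖x i‖ := by
            refine (norm_sum_le _ _).trans (Finset.sum_le_sum fun i _ => ?_)
            rw [hR, ContinuousLinearMap.smul_apply, norm_smul, norm_norm]
            gcongr
            exact ((φ i).le_opNorm (x i)).trans (mul_le_of_le_one_left (norm_nonneg _) (hφ1 i))
        _ ≤ Real.sqrt A * Real.sqrt (∑ i ∈ s, ‖x i‖ ^ 2) :=
            Real.sum_mul_le_sqrt_mul_sqrt _ _ _
        _ ≤ Real.sqrt A * ‖x‖ := by
            gcongr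
            calc _ ≤ Real.sqrt (‖x‖ ^ 2) := Real.sqrt_le_sqrt (big_sum_le x s)
              _ = ‖x‖ := Real.sqrt_sq (norm_nonneg _)
    have hval : Φ L = A := by
      rw [hL, map_sum, hA]
      refine Finset.sum_congr rfl fun i _ => ?_
      rw [map_smul, map_smul, haf, smul_eq_mul, hφ2 i]
      simp [sq]
    have h1 : A ≤ ‖Φ‖ * Real.sqrt A := by
      calc A = Φ L := hval.symm
        _ ≤ ‖Φ L‖ := le_abs_self _
        _ ≤ ‖Φ‖ * ‖L‖ := Φ.le_opNorm L
        _ ≤ _ := by gcongr
    have h2 := Real.mul_self_sqrt hA0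
    nlinarith [sq_nonneg (‖Φ‖ - Real.sqrt A)]
  let x0 : Big := ⟨a, memℓp_gen' (C := ‖Φ‖ ^ 2) fun s => by simpa [Real.rpow_two] using hbd s⟩
  refine ⟨x0, ?_⟩
  ext f
  rw [NormedSpace.dual_def]
  let fi : ∀ i, StrongDual ℝ (Comp i) := fun i => f.comp (incl i)
  have hfi : ∀ i z, fi i z = f (lp.single 2 i z) := fun i z => rfl
  set B : ℕ → ℝ := fun i => ‖fi i‖ with hB
  have hBsum : ∀ s : Finset ℕ, ∑ i ∈ s, B i ^ 2 ≤ ‖f‖ ^ 2 := by
    intro s
    set A := ∑ i ∈ s, B i ^ 2 with hA
    have hA0 : 0 ≤ A := Finset.sum_nonneg fun i _ => by positivity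
    have hne : ∀ η : ℝ, 0 < η → A ≤ ‖f‖ * Real.sqrt A + η := by
      intro η hη
      set κ := η / (∑ i ∈ s, B i + 1) with hκ
      have hsB : 0 ≤ ∑ i ∈ s, B i := Finset.sum_nonneg fun i _ => norm_nonneg _
      have hκ0 : 0 < κ := by positivity
      have hex : ∀ i, ∃ z : Comp i, ‖z‖ ≤ 1 ∧ B i - κ ≤ fi i z := by
        intro i
        obtain ⟨z, hz1, hz2⟩ := ContinuousLinearMap.exists_lt_apply_of_lt_opNorm (fi i)
          (show B i - κ < ‖fi i‖ by simp only [hB]; linarith)
        rcases le_total 0 (fi i z) with h | h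
        · exact ⟨z, hz1.le, by rw [Real.norm_eq_abs, abs_of_nonneg h] at hz2; linarith⟩
        · exact ⟨-z, by rw [norm_neg]; exact hz1.le, by
            rw [Real.norm_eq_abs, abs_of_nonpos h] at hz2; rw [map_neg]; linarith⟩
      choose z hz1 hz2 using hex
      have h1 : ∑ i ∈ s, B i * fi i (z i) ≤ ‖f‖ * Real.sqrt A := by
        have e : ∑ i ∈ s, B i * fi i (z i) = f (∑ i ∈ s, incl i (B i • z i)) := by
          rw [map_sum]
          refine Finset.sum_congr rfl fun i _ => ?_
          rw [map_smul, map_smul, smul_eq_mul]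
          rfl
        rw [e]
        refine (le_abs_self _).trans ((f.le_opNorm _).trans ?_)
        gcongr
        refine (Real.le_sqrt (norm_nonneg _) hA0).2 ?_
        rw [norm_sum_incl]
        refine Finset.sum_le_sum fun i _ => ?_
        rw [norm_smul, mul_pow, Real.norm_eq_abs, sq_abs]
        exact mul_le_of_le_one_right (sq_nonneg _) (pow_le_one₀ (norm_nonneg _) (hz1 i))
      have h2 : ∑ i ∈ s, (B i ^ 2 - κ * B i) ≤ ∑ i ∈ s, B i * fi i (z i) :=
        Finset.sum_le_sum fun i _ => by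
          nlinarith [mul_le_mul_of_nonneg_left (hz2 i) (norm_nonneg (fi i))]
      rw [Finset.sum_sub_distrib, ← Finset.mul_sum] at h2
      have h3 : κ * ∑ i ∈ s, B i ≤ η := by
        rw [hκ, div_mul_eq_mul_div, div_le_iff₀ (by positivity)]
        nlinarith
      linarith
    have h1 : A ≤ ‖f‖ * Real.sqrt A := le_of_forall_pos_le_add hne
    have h2 := Real.mul_self_sqrt hA0
    nlinarith [sq_nonneg (‖f‖ - Real.sqrt A)]
  have hBS : Summable fun i => B i ^ 2 :=
    summable_of_sum_le (fun i => sq_nonneg _) hBsum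
  have happ : ∀ x : Big, HasSum (fun i => fi i (x i)) (f x) := fun x => by
    have := (lp.hasSum_single (by norm_num) x).mapL f
    exact this
  have htend : Tendsto (fun s : Finset ℕ => ∑ i ∈ s, R i (fi i)) atTop (𝓝 f) := by
    rw [tendsto_iff_norm_sub_tendsto_zero]
    refine squeeze_zero (fun s => norm_nonneg _) (g := fun s : Finset ℕ =>
      Real.sqrt ((∑' i, B i ^ 2) - ∑ i ∈ s, B i ^ 2)) (fun s => ?_) ?_
    · rw [norm_sub_rev]
      refine ContinuousLinearMap.opNorm_le_bound _ (Real.sqrt_nonneg _) fun x => ?_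
      have hs : HasSum (fun i => if i ∈ s then fi i (x i) else 0) (∑ i ∈ s, fi i (x i)) := by
        have := hasSum_sum_of_ne_finset_zero (f := fun i => if i ∈ s then fi i (x i) else 0)
          (s := s) (L := SummationFilter.unconditional ℕ) (fun i hi => if_neg hi)
        rwa [Finset.sum_congr rfl (fun i hi => if_pos hi)] at this
      have hd := (happ x).sub hs
      have e : (f - ∑ i ∈ s, R i (fi i)) x = f x - ∑ i ∈ s, fi i (x i) := by
        rw [sub_apply, ContinuousLinearMap.sum_apply]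
        rfl
      rw [e]
      refine le_of_tendsto (Filter.Tendsto.norm hd) (Eventually.of_forall fun u => ?_)
      calc ‖∑ i ∈ u, (fi i (x i) - if i ∈ s then fi i (x i) else 0)‖
          ≤ ∑ i ∈ u \ s, B i * ‖x i‖ := by
            refine (norm_sum_le _ _).trans (le_of_eq_of_le ?_ (Finset.sum_le_sum fun i _ =>
              (fi i).le_opNorm (x i)))
            rw [Finset.sdiff_eq_filter, Finset.sum_filter]
            refine Finset.sum_congr rfl fun i _ => ?_
            by_cases hi : i ∈ s <;> simp [hi]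
        _ ≤ Real.sqrt (∑ i ∈ u \ s, B i ^ 2) * Real.sqrt (∑ i ∈ u \ s, ‖x i‖ ^ 2) :=
            Real.sum_mul_le_sqrt_mul_sqrt _ _ _
        _ ≤ Real.sqrt ((∑' i, B i ^ 2) - ∑ i ∈ s, B i ^ 2) * ‖x‖ := by
            gcongr
            · rw [le_sub_iff_add_le, ← Finset.sum_union Finset.sdiff_disjoint]
              exact hBS.sum_le_tsum _ (fun i _ => sq_nonneg _)
            · calc _ ≤ Real.sqrt (‖x‖ ^ 2) := Real.sqrt_le_sqrt (big_sum_le x _)
                _ = ‖x‖ := Real.sqrt_sq (norm_nonneg _)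
    · have h0 : Tendsto (fun s : Finset ℕ => (∑' i, B i ^ 2) - ∑ i ∈ s, B i ^ 2) atTop (𝓝 0) := by
        have hsum : Tendsto (fun s : Finset ℕ => ∑ i ∈ s, B i ^ 2) atTop (𝓝 (∑' i, B i ^ 2)) :=
          hBS.hasSum
        have := hsum.const_sub (∑' i, B i ^ 2)
        rwa [sub_self] at this
      simpa using h0.sqrt
  have h1 : Tendsto (fun s : Finset ℕ => Φ (∑ i ∈ s, R i (fi i))) atTop (𝓝 (Φ f)) :=
    (Φ.continuous.tendsto f).comp htend
  have h2 : (fun s : Finset ℕ => Φ (∑ i ∈ s, R i (fi i))) = fun s => ∑ i ∈ s, fi i (x0 i) := by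
    funext s
    rw [map_sum]
    exact Finset.sum_congr rfl fun i _ => haf i (fi i)
  rw [h2] at h1
  exact tendsto_nhds_unique (happ x0) h1

open Classical in
/-- Every point is approximated by one supported on finitely many nodes in finitely many
components. -/
lemma exists_finite_approx (x : Big) (η : ℝ) (hη : 0 < η) :
    ∃ (s : Finset ℕ) (U : ∀ i, Finset (Node i)) (z : ∀ i, Comp i),
      (∀ i, AncClosed (↑(U i) : Set (Node i))) ∧ (∀ i, ∀ t ∉ U i, toHil (z i) t = 0) ∧
        ‖x - ∑ i ∈ s, incl i (z i)‖ < η := by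
  have h := lp.hasSum_single (p := 2) (by norm_num) x
  obtain ⟨s, hs⟩ := (Metric.tendsto_nhds.1 h (η / 2) (by linarith)).exists
  set κ := η / 2 / (s.card + 1) with hκ
  have hκ0 : 0 < κ := by positivity
  have hex : ∀ i, ∃ (U : Finset (Node i)) (z : Comp i), AncClosed (↑U : Set (Node i)) ∧
      (∀ t ∉ U, toHil z t = 0) ∧ ‖x i - z‖ ≤ κ := by
    intro i
    have h' := lp.hasSum_single (p := 2) (by norm_num) (toHil (x i))
    obtain ⟨u, hu⟩ := (Metric.tendsto_nhds.1 h' κ hκ0).exists
    obtain ⟨U, hUs, hU⟩ := exists_ancClosed_finset u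
    refine ⟨U, toHil.symm (∑ t ∈ u, lp.single 2 t (toHil (x i) t)), hU, fun t ht => ?_, ?_⟩
    · rw [LinearEquiv.apply_symm_apply, lp.coeFn_sum, Finset.sum_apply]
      refine Finset.sum_eq_zero fun r hr => lp.single_apply_ne _ _ _ ?_
      rintro rfl
      exact ht (hUs hr)
    · refine (comp_norm_le_hil _).trans ?_
      rw [map_sub, LinearEquiv.apply_symm_apply, norm_sub_rev, ← dist_eq_norm]
      exact hu.le
  choose U z hU hz hd using hex
  refine ⟨s, U, z, hU, hz, ?_⟩
  have e : x - ∑ i ∈ s, incl i (z i) =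
      (x - ∑ i ∈ s, lp.single 2 i (x i)) + ∑ i ∈ s, incl i (x i - z i) := by
    simp only [map_sub, Finset.sum_sub_distrib, incl_apply]
    abel
  rw [e]
  refine lt_of_le_of_lt (norm_add_le _ _) ?_
  have h1 : ‖x - ∑ i ∈ s, lp.single 2 i (x i)‖ < η / 2 := by
    rw [norm_sub_rev, ← dist_eq_norm]; exact hs
  have h2 : ‖∑ i ∈ s, incl i (x i - z i)‖ ≤ η / 2 := by
    refine (norm_sum_le _ _).trans ((Finset.sum_le_sum fun i _ =>
      (norm_incl i _).le.trans (hd i)).trans ?_)
    rw [Finset.sum_const, nsmul_eq_mul, hκ]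
    rw [mul_div_assoc', div_le_iff₀ (by positivity)]
    nlinarith
  linarith

open Classical in
theorem big_amuc_modulus (t : ℝ) (ht : 0 < t) (x : Big) (hx : ‖x‖ = 1) :
    ∃ F : Submodule ℝ Big, IsClosed (F : Set Big) ∧ FiniteDimensional ℝ (Big ⧸ F) ∧
      ∀ y ∈ F, ‖y‖ = 1 → 1 + min t 1 ^ 2 / 256 ≤ max ‖x + t • y‖ ‖x - t • y‖ := by
  set r := min t 1 with hr
  have hr0 : 0 < r := lt_min ht one_pos
  have hr1 : r ≤ 1 := min_le_right _ _
  obtain ⟨s, U, z, hU, hz, hxz⟩ := exists_finite_approx x (r ^ 2 / 2000) (by positivity)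
  set x' : Big := ∑ i ∈ s, incl i (z i) with hx'
  let Λ : Big →L[ℝ] (Σ i : s, (U i : Set (Node (i : ℕ)))) → ℝ :=
    ContinuousLinearMap.pi fun p =>
      (lp.evalCLM ℝ (fun _ : Node (p.1 : ℕ) => ℝ) 2 p.2.1).comp
        ((toHilL (n := (p.1 : ℕ)) : Comp (p.1 : ℕ) →L[ℝ] Hil (p.1 : ℕ)).comp
          (lp.evalCLM ℝ Comp 2 (p.1 : ℕ)))
  refine ⟨Λ.ker, Λ.isClosed_ker, (LinearMap.quotKerEquivRange Λ.toLinearMap).symm.finiteDimensional,
    fun y hy hy1 => ?_⟩
  have hy' : ∀ i ∈ s, ∀ u ∈ U i, toHil (y i) u = 0 := fun i hi u hu => by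
    have : Λ y = 0 := hy
    exact congrFun this ⟨⟨i, hi⟩, ⟨u, hu⟩⟩
  have hx'c : ∀ j, x' j = if j ∈ s then z j else 0 := fun j => by
    rw [hx', lp.coeFn_sum, Finset.sum_apply]
    by_cases hj : j ∈ s
    · rw [if_pos hj, Finset.sum_eq_single j]
      · exact lp.single_apply_self 2 j (z j)
      · exact fun b _ hb => lp.single_apply_ne 2 b (z b) (Ne.symm hb)
      · exact fun h => absurd hj h
    · rw [if_neg hj]
      exact Finset.sum_eq_zero fun b hb => lp.single_apply_ne 2 b (z b)
        (fun h => hj (h ▸ hb))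
  have hcomp : ∀ j, 2 * ‖x' j‖ ^ 2 + ‖(t • y) j‖ ^ 2 / 32 ≤
      ‖(x' + t • y) j‖ ^ 2 + ‖(x' - t • y) j‖ ^ 2 := fun j => by
    rw [lp.coeFn_add, lp.coeFn_sub, Pi.add_apply, Pi.sub_apply, hx'c]
    by_cases hj : j ∈ s
    · rw [if_pos hj]
      refine gain (U j) (hU j) _ _ (hz j) fun u hu => ?_
      rw [lp.coeFn_smul, Pi.smul_apply, map_smul, lp.coeFn_smul, Pi.smul_apply, hy' j hj u hu,
        smul_zero]
    · rw [if_neg hj, zero_add, zero_sub, norm_neg, norm_zero]
      nlinarith [norm_nonneg ((t • y) j)]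
  have hall : 2 * ‖x'‖ ^ 2 + ‖t • y‖ ^ 2 / 32 ≤ ‖x' + t • y‖ ^ 2 + ‖x' - t • y‖ ^ 2 :=
    hasSum_le hcomp (((big_hasSum x').mul_left 2).add ((big_hasSum (t • y)).div_const 32))
      ((big_hasSum _).add (big_hasSum _))
  rw [norm_smul, hy1, Real.norm_eq_abs, abs_of_pos ht, mul_one] at hall
  set M := max ‖x + t • y‖ ‖x - t • y‖ with hM
  set η := r ^ 2 / 2000 with hη
  have hx1 : 1 - η ≤ ‖x'‖ := by
    have := norm_le_norm_add_norm_sub' x x'
    linarith
  have hp : ‖x' + t • y‖ ≤ M + η := by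
    have h1 : ‖x' + t • y‖ ≤ ‖x + t • y‖ + ‖x - x'‖ := by
      calc ‖x' + t • y‖ = ‖(x + t • y) - (x - x')‖ := by abel_nf
        _ ≤ _ := norm_sub_le _ _
    have : ‖x + t • y‖ ≤ M := le_max_left _ _
    linarith
  have hm : ‖x' - t • y‖ ≤ M + η := by
    have h1 : ‖x' - t • y‖ ≤ ‖x - t • y‖ + ‖x - x'‖ := by
      calc ‖x' - t • y‖ = ‖(x - t • y) - (x - x')‖ := by abel_nf
        _ ≤ _ := norm_sub_le _ _
    have : ‖x - t • y‖ ≤ M := le_max_right _ _
    linarith
  by_contra hlt
  rw [not_le] at hlt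
  have hrt : r ^ 2 ≤ t ^ 2 := pow_le_pow_left₀ hr0.le (min_le_left _ _) 2
  have hr2 : r ^ 2 ≤ 1 := pow_le_one₀ hr0.le hr1
  have q1 := pow_le_pow_left₀ (norm_nonneg _) hp 2
  have q2 := pow_le_pow_left₀ (norm_nonneg _) hm 2
  have q3 := pow_le_pow_left₀ (by linarith : (0 : ℝ) ≤ 1 - η) hx1 2
  have q4 : (M + η) ^ 2 ≤ (1 + r ^ 2 / 256 + η) ^ 2 :=
    pow_le_pow_left₀ (le_trans (norm_nonneg _) hp) (by linarith) 2
  nlinarith [mul_le_mul_of_nonneg_left hr2 (sq_nonneg r)]

theorem big_amuc : IsAMUC (fun x : Big => ‖x‖) := fun t ht =>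
  ⟨min t 1 ^ 2 / 256, div_pos (pow_pos (lt_min ht one_pos) 2) (by norm_num), fun x hx =>
    big_amuc_modulus t ht x hx⟩

/-- The children of a node, indexed by the natural numbers. -/
def child {m : ℕ} (t : Node m) (h : lev t < m) (j : ℕ) : Node m :=
  ⟨t.1 ++ [j], by rw [List.length_append, List.length_singleton]; exact h⟩

lemma lev_child {m : ℕ} (t : Node m) (h : lev t < m) (j : ℕ) : lev (child t h j) = lev t + 1 := by
  simp [lev, child]

lemma branch_child {m : ℕ} (t : Node m) (h : lev t < m) (j : ℕ) :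
    branch (child t h j) = branch t + unit (child t h j) := by
  unfold branch
  rw [lev_child, Finset.sum_range_succ, anc_of_le _ (lev_child t h j).le]
  congr 1
  refine Finset.sum_congr rfl fun k hk => congrArg unit (Subtype.ext ?_)
  have hk' : k ≤ t.1.length := by simpa [lev, Nat.lt_succ_iff] using Finset.mem_range.1 hk
  exact List.take_append_of_le_length hk'

lemma tendsto_child {m : ℕ} (t : Node m) (h : lev t < m) (f : StrongDual ℝ Big) :
    Tendsto (fun j => f (incl m (unit (child t h j)))) atTop (𝓝 0) := by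
  set v := (InnerProductSpace.toDual ℝ (Hil m)).symm
    ((f.comp (incl m)).comp ((toHilL (n := m)).symm : Hil m →L[ℝ] Comp m)) with hv
  have hval : ∀ u : Node m, f (incl m (unit u)) = v u := by
    intro u
    have h1 : ⟪v, (lp.single 2 u (1 : ℝ) : Hil m)⟫ = v u := by rw [hil_inner_single, one_mul]
    rw [← h1, hv, InnerProductSpace.toDual_symm_apply]
    rfl
  have hsum : Summable fun u : Node m => v u ^ 2 := by
    simpa [Real.rpow_two] using (lp.memℓp v).summable two_pos'
  have hinj : Function.Injective (child t h) := fun a b hab => by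
    simpa [child] using congrArg Subtype.val hab
  have h0 := ((hsum.comp_injective hinj).tendsto_atTop_zero).sqrt
  simp only [Function.comp_def, Real.sqrt_sq_eq_abs, Real.sqrt_zero] at h0
  simp only [hval]
  exact (tendsto_zero_iff_abs_tendsto_zero _).2 h0

/-- A child unit vector can be moved into any closed finite-codimensional subspace by a small
perturbation. -/
lemma exists_child_near {m : ℕ} (t : Node m) (h : lev t < m) (F : Submodule ℝ Big)
    (hF : IsClosed (F : Set Big)) (hfin : FiniteDimensional ℝ (Big ⧸ F)) {η : ℝ} (hη : 0 < η) :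
    ∃ j, ∃ y ∈ F, ‖incl m (unit (child t h j)) - y‖ < η := by
  haveI : IsClosed (F : Set Big) := hF
  let b := Module.finBasis ℝ (Big ⧸ F)
  let e := b.equivFunL
  let q : Big →L[ℝ] Big ⧸ F := ⟨F.mkQ, continuous_quot_mk⟩
  have h1 : Tendsto (fun j => e (q (incl m (unit (child t h j))))) atTop (𝓝 0) := by
    rw [tendsto_pi_nhds]
    intro i
    exact tendsto_child t h ((ContinuousLinearMap.proj i).comp
      ((e : (Big ⧸ F) →L[ℝ] (Fin (Module.finrank ℝ (Big ⧸ F)) → ℝ)).comp q))
  have h2 : Tendsto (fun j => q (incl m (unit (child t h j)))) atTop (𝓝 0) := by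
    have := (e.symm.continuous.tendsto 0).comp h1
    simpa [Function.comp_def] using this
  obtain ⟨j, hj⟩ := (Metric.tendsto_nhds.1 h2 η hη).exists
  rw [dist_zero_right] at hj
  obtain ⟨r, hr, hrn⟩ := QuotientAddGroup.norm_lt_iff.1 hj
  refine ⟨j, incl m (unit (child t h j)) - r, ?_, by simpa using hrn⟩
  have : F.mkQ r = F.mkQ (incl m (unit (child t h j))) := hr
  exact (Submodule.Quotient.eq F).1 this.symm

theorem big_not_finiteDimensional : ¬ FiniteDimensional ℝ Big := by
  intro hfd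
  let t : Node 1 := ⟨[], by simp⟩
  have h : lev t < 1 := by simp [lev, t]
  obtain ⟨j, y, hy, hj⟩ := exists_child_near t h ⊥
    (Submodule.closed_of_finiteDimensional _) inferInstance one_pos
  rw [(Submodule.mem_bot ℝ).1 hy, sub_zero, norm_incl, norm_unit] at hj
  exact lt_irrefl _ hj

theorem big_no_auc : ¬ ∃ N : Big → ℝ, IsEquivalentNorm N ∧ IsAUC N := by
  rintro ⟨N, ⟨hadd, hsmul, c, C, hc, hb⟩, hauc⟩
  have hC : c ≤ C := by
    have h1 := hb (incl 0 (branch (⟨[], le_rfl⟩ : Node 0)))
    have h2 : 1 ≤ ‖incl 0 (branch (⟨[], le_rfl⟩ : Node 0))‖ := by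
      rw [norm_incl]; exact one_le_norm_branch _
    nlinarith [h1.1, h1.2]
  have hC0 : 0 < C := hc.trans_le hC
  set t0 := c / (2 * C) with ht0
  have ht00 : 0 < t0 := by positivity
  obtain ⟨δ, hδ, hδF⟩ := hauc t0 ht00
  obtain ⟨m, hm⟩ := exists_nat_gt (C / (c * δ / 2))
  have step : ∀ k ≤ m, ∃ u : Node m, lev u = k ∧ k * (c * δ / 2) ≤ N (incl m (branch u)) := by
    intro k
    induction k with
    | zero =>
      intro _
      refine ⟨⟨[], Nat.zero_le _⟩, rfl, ?_⟩
      rw [Nat.cast_zero, zero_mul]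
      exact le_trans (by positivity) (hb _).1
    | succ k ih =>
      intro hk
      obtain ⟨u, hu, hN⟩ := ih (by omega)
      have hlt : lev u < m := by omega
      set S := incl m (branch u) with hS
      set a := N S with ha
      have hS1 : ‖S‖ = 1 := by
        rw [hS, norm_incl]; exact le_antisymm (norm_branch_le u) (one_le_norm_branch u)
      have hac : c ≤ a ∧ a ≤ C := by
        have := hb S
        rw [hS1, mul_one, mul_one] at this
        exact this
      have ha0 : 0 < a := hc.trans_le hac.1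
      have hx : N (a⁻¹ • S) = 1 := by
        rw [hsmul, abs_of_pos (inv_pos.2 ha0), ← ha, inv_mul_cancel₀ ha0.ne']
      obtain ⟨F, hFc, hFd, hFy⟩ := hδF _ hx
      obtain ⟨j, y', hy', hnear⟩ := exists_child_near u hlt F hFc hFd
        (η := min (c / 2) (c * δ / 2) / C) (by positivity)
      set E := incl m (unit (child u hlt j)) with hE
      have hE1 : ‖E‖ = 1 := by rw [hE, norm_incl, norm_unit]
      rw [lt_div_iff₀ hC0, mul_comm] at hnear
      have hlo : c ≤ N E := by simpa [hE1] using (hb E).1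
      have hdist : N (E - y') < min (c / 2) (c * δ / 2) := ((hb _).2).trans_lt hnear
      have hdist' : N (y' - E) = N (E - y') := by
        rw [show y' - E = (-1 : ℝ) • (E - y') by simp, hsmul]; simp
      set b := N y' with hbdef
      have hbl : c / 2 ≤ b := by
        have := hadd y' (E - y')
        rw [add_sub_cancel] at this
        have := min_le_left (c / 2) (c * δ / 2)
        linarith
      have hb0 : 0 < b := by linarith
      have hy1 : N (b⁻¹ • y') = 1 := by
        rw [hsmul, abs_of_pos (inv_pos.2 hb0), ← hbdef, inv_mul_cancel₀ hb0.ne']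
      have hineq := hFy _ (F.smul_mem _ hy') hy1
      set x := a⁻¹ • S with hxdef
      set T := b / a with hT
      have hTt : t0 ≤ T := by
        rw [ht0, hT, div_le_div_iff₀ (by positivity) ha0]
        nlinarith
      have hT0 : 0 < T := ht00.trans_le hTt
      have hlam : t0 / T ≤ 1 := (div_le_one hT0).2 hTt
      have hsplit : x + t0 • (b⁻¹ • y') =
          (t0 / T) • (x + T • (b⁻¹ • y')) + (1 - t0 / T) • x := by
        rw [smul_add, smul_smul (t0 / T) T, div_mul_cancel₀ _ hT0.ne', sub_smul, one_smul]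
        abel
      have hconv := hadd ((t0 / T) • (x + T • (b⁻¹ • y'))) ((1 - t0 / T) • x)
      rw [← hsplit, hsmul, hsmul, hx, abs_of_pos (by positivity),
        abs_of_nonneg (by linarith : 0 ≤ 1 - t0 / T), mul_one] at hconv
      have hbig : 1 + δ ≤ N (x + T • (b⁻¹ • y')) := by
        have hl0 : 0 < t0 / T := by positivity
        nlinarith
      have hxy : S + y' = a • (x + T • (b⁻¹ • y')) := by
        rw [hxdef, hT, smul_add, smul_smul, smul_smul, smul_smul, mul_inv_cancel₀ ha0.ne',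
          one_smul]
        congr 1
        rw [show a * (b / a) * b⁻¹ = 1 by field_simp, one_smul]
      have hsum : a + c * δ ≤ N (S + y') := by
        rw [hxy, hsmul, abs_of_pos ha0]
        nlinarith
      have hfinal : a + c * δ / 2 ≤ N (S + E) := by
        have := hadd (S + E) (y' - E)
        rw [show S + E + (y' - E) = S + y' by abel, hdist'] at this
        have := min_le_right (c / 2) (c * δ / 2)
        linarith
      refine ⟨child u hlt j, by rw [lev_child, hu], ?_⟩
      rw [branch_child, map_add, Nat.cast_succ, add_mul, one_mul]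
      linarith
  obtain ⟨u, -, hu⟩ := step m le_rfl
  have h1 := (hb (incl m (branch u))).2
  have h2 : ‖incl m (branch u)‖ ≤ 1 := by rw [norm_incl]; exact norm_branch_le u
  rw [div_lt_iff₀ (by positivity)] at hm
  nlinarith

instance (m : ℕ) : TopologicalSpace.SeparableSpace (Comp m) := by
  classical
  have hH : TopologicalSpace.SeparableSpace (Hil m) := by
    refine TopologicalSpace.isSeparable_univ_iff.1 ?_
    have hspan := ((Set.countable_range fun t : Node m =>
      (lp.single 2 t (1 : ℝ) : Hil m)).isSeparable.span (R := ℝ)).closure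
    refine hspan.mono fun x _ => ?_
    refine mem_closure_of_tendsto (lp.hasSum_single (by norm_num) x)
      (Eventually.of_forall fun s => Submodule.sum_mem _ fun t _ => ?_)
    have e : (lp.single 2 t (x t) : Hil m) = x t • lp.single 2 t (1 : ℝ) := by
      rw [← lp.single_smul]; simp
    rw [e]
    exact Submodule.smul_mem _ _ (Submodule.subset_span ⟨t, rfl⟩)
  exact (toHilL (n := m)).symm.surjective.denseRange.separableSpace
    (toHilL (n := m)).symm.continuous

theorem big_separable : TopologicalSpace.SeparableSpace Big := by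
  classical
  refine TopologicalSpace.isSeparable_univ_iff.1 ?_
  have h1 : TopologicalSpace.IsSeparable (⋃ m, Set.range (incl m)) :=
    TopologicalSpace.IsSeparable.iUnion fun m =>
      TopologicalSpace.isSeparable_range (incl m).continuous
  refine (h1.span (R := ℝ)).closure.mono fun x _ => ?_
  refine mem_closure_of_tendsto (lp.hasSum_single (by norm_num) x)
    (Eventually.of_forall fun s => Submodule.sum_mem _ fun i _ =>
      Submodule.subset_span (Set.mem_iUnion.2 ⟨i, _, rfl⟩))

end Vale.Agent.P069
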