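import Mathlib

/-!
The countably branching tree of height `n` and cumulative sums along root paths.
-/

namespace Vale.Agent.P069

/-- Nodes of the countably branching tree of height `n`. -/
abbrev Node (n : ℕ) : Type := {l : List ℕ // l.length ≤ n}

variable {n : ℕ}

/-- The level of a node. -/
def lev (t : Node n) : ℕ := t.1.length

/-- The ancestor of `t` at level `min k (lev t)`. -/
def anc (t : Node n) (k : ℕ) : Node n :=
  ⟨t.1.take k, le_trans (by simp) t.2⟩

lemma lev_le (t : Node n) : lev t ≤ n := t.2

lemma lev_anc (t : Node n) (k : ℕ) : lev (anc t k) = min k (lev t) := by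
  simp [lev, anc]

lemma anc_of_le (t : Node n) {k : ℕ} (h : lev t ≤ k) : anc t k = t :=
  Subtype.ext (List.take_of_length_le h)

lemma anc_anc (t : Node n) (k j : ℕ) : anc (anc t k) j = anc t (min j k) :=
  Subtype.ext (by simp [anc, List.take_take])

/-- Sum of `g` along the path from the root to `t`. -/
def pathSum (g : Node n → ℝ) (t : Node n) : ℝ :=
  ∑ k ∈ Finset.range (lev t + 1), g (anc t k)

/-- The value of `H` at the parent of `t`, and zero if `t` is the root. -/
def parentVal (H : Node n → ℝ) (t : Node n) : ℝ :=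
  if lev t = 0 then 0 else H (anc t (lev t - 1))

/-- Increment of `H` from the parent of `t` to `t`. -/
def incr (H : Node n → ℝ) (t : Node n) : ℝ := H t - parentVal H t

lemma incr_anc (H : Node n → ℝ) (t : Node n) (k : ℕ) (hk : k + 1 ≤ lev t) :
    incr H (anc t (k + 1)) = H (anc t (k + 1)) - H (anc t k) := by
  have h1 : lev (anc t (k + 1)) = k + 1 := by rw [lev_anc]; omega
  unfold incr parentVal
  rw [h1, if_neg (Nat.succ_ne_zero k), anc_anc]
  congr 2
  congr 1
  omega

lemma pathSum_incr (H : Node n → ℝ) (t : Node n) : pathSum (incr H) t = H t := by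
  unfold pathSum
  rw [Finset.sum_range_succ', Finset.sum_congr rfl (fun k hk => incr_anc H t k
    (by simpa using hk)), Finset.sum_range_sub (fun k => H (anc t k))]
  have h0 : lev (anc t 0) = 0 := by rw [lev_anc]; omega
  have : incr H (anc t 0) = H (anc t 0) := by simp [incr, parentVal, h0]
  rw [this, anc_of_le t le_rfl]
  ring

lemma pathSum_root (g : Node n → ℝ) (t : Node n) (h : lev t = 0) : pathSum g t = g t := by
  simp [pathSum, h, anc_of_le t (show lev t ≤ 0 by omega)]

lemma pathSum_step (g : Node n → ℝ) (t : Node n) (h : lev t ≠ 0) :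
    pathSum g t = pathSum g (anc t (lev t - 1)) + g t := by
  obtain ⟨m, hm⟩ := Nat.exists_eq_succ_of_ne_zero h
  have hm' : lev (anc t (lev t - 1)) = m := by rw [lev_anc]; omega
  unfold pathSum
  rw [hm', Finset.sum_range_succ _ (lev t)]
  rw [anc_of_le t le_rfl]
  congr 1
  rw [show lev t = m + 1 from hm]
  refine Finset.sum_congr rfl (fun k hk => ?_)
  rw [anc_anc]
  have : k ≤ m := by simp at hk; omega
  congr 2
  omega

lemma incr_pathSum (g : Node n → ℝ) (t : Node n) : incr (pathSum g) t = g t := by
  unfold incr parentVal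
  by_cases h : lev t = 0
  · rw [if_pos h, pathSum_root g t h, sub_zero]
  · rw [if_neg h, pathSum_step g t h]; ring

/-- `U` contains every ancestor of each of its members. -/
def AncClosed (U : Set (Node n)) : Prop := ∀ t ∈ U, ∀ k, anc t k ∈ U

lemma not_mem_of_parent {U : Set (Node n)} (hU : AncClosed U) {u : Node n} {k : ℕ}
    (h : anc u k ∉ U) : u ∉ U := fun hu => h (hU u hu k)

lemma pathSum_eq_zero {g : Node n → ℝ} {U : Set (Node n)} (hU : AncClosed U)
    (hg : ∀ t ∈ U, g t = 0) {t : Node n} (ht : t ∈ U) : pathSum g t = 0 :=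
  Finset.sum_eq_zero fun k _ => hg _ (hU t ht k)

lemma pathSum_congr_on {f g : Node n → ℝ} {U : Set (Node n)} (hU : AncClosed U)
    (h : ∀ t ∈ U, f t = g t) {t : Node n} (ht : t ∈ U) : pathSum f t = pathSum g t :=
  Finset.sum_congr rfl fun k _ => h _ (hU t ht k)

lemma pathSum_outside {g : Node n → ℝ} {t : Node n} (hg : g t = 0) (h : lev t ≠ 0) :
    pathSum g t = pathSum g (anc t (lev t - 1)) := by
  rw [pathSum_step g t h, hg, add_zero]

open Classical in
/-- Restricting a function with bounded path sums to an ancestor-closed set keeps the bound. -/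
lemma abs_pathSum_indicator_le {g : Node n → ℝ} {U : Set (Node n)} (hU : AncClosed U)
    (hg : ∀ t, |pathSum g t| ≤ 1) (t : Node n) : |pathSum (U.indicator g) t| ≤ 1 := by
  suffices ∀ m, ∀ t : Node n, lev t ≤ m → |pathSum (U.indicator g) t| ≤ 1 from
    this (lev t) t le_rfl
  intro m
  induction m with
  | zero =>
    intro t ht
    have h0 : lev t = 0 := by omega
    rw [pathSum_root _ t h0]
    by_cases hu : t ∈ U
    · rw [Set.indicator_of_mem hu, ← pathSum_root g t h0]; exact hg t
    · rw [Set.indicator_of_notMem hu]; simp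
  | succ m ih =>
    intro t ht
    by_cases hu : t ∈ U
    · rw [pathSum_congr_on hU (fun s hs => Set.indicator_of_mem hs g) hu]; exact hg t
    · by_cases h0 : lev t = 0
      · rw [pathSum_root _ t h0, Set.indicator_of_notMem hu]; simp
      · rw [pathSum_outside (Set.indicator_of_notMem hu g) h0]
        exact ih _ (by rw [lev_anc]; omega)

/-- The closure of a finite set of nodes under ancestors is finite. -/
lemma exists_ancClosed_finset (s : Finset (Node n)) :
    ∃ U : Finset (Node n), s ⊆ U ∧ AncClosed (↑U : Set (Node n)) := by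
  classical
  refine ⟨s.biUnion (fun t => (Finset.range (n + 1)).image (anc t)), ?_, ?_⟩
  · intro t ht
    simp only [Finset.mem_biUnion, Finset.mem_image, Finset.mem_range]
    exact ⟨t, ht, n, by omega, anc_of_le t (lev_le t)⟩
  · intro u hu k
    simp only [Finset.coe_biUnion, Finset.coe_image, Set.mem_iUnion, Set.mem_image,
      Finset.mem_coe, Finset.mem_range] at hu ⊢
    obtain ⟨t, ht, j, hj, rfl⟩ := hu
    exact ⟨t, ht, min k j, by omega, (anc_anc t j k).symm⟩

lemma anc_eq_iff {u t : Node n} {k : ℕ} (hk : k ≤ lev u) (h : anc u k = t) : k = lev t := by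
  rw [← h, lev_anc]; omega

end Vale.Agent.P069
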